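import Vale.Agent.P154.Neg.Grid.Runs.Base
import Vale.Agent.P154.Neg.Grid.Runs.E2.Agg
import Vale.Agent.P154.Neg.Grid.Runs.GG.Agg
import Vale.Agent.P154.Neg.Grid.Runs.E2.PoiStates
import Vale.Agent.P154.Neg.Grid.RunPoi

/-!
# P154: levels of the run at the edge -31/64
-/

namespace Vale.Agent.P154.Neg.Grid.Runs.E2.Poi

def chunk0 : poiOk (mkPar 31 64) qs g1 g2 GG.g4 5 st0 st1 = true := by decide +kernel

def chunk1 : poiOk (mkPar 31 64) qs g1 g2 GG.g4 5 st1 st2 = true := by decide +kernel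

def chunk2 : poiOk (mkPar 31 64) qs g1 g2 GG.g4 5 st2 st3 = true := by decide +kernel

def chunk3 : poiOk (mkPar 31 64) qs g1 g2 GG.g4 5 st3 st4 = true := by decide +kernel

def chunk4 : poiOk (mkPar 31 64) qs g1 g2 GG.g4 5 st4 st5 = true := by decide +kernel

def chunk5 : poiOk (mkPar 31 64) qs g1 g2 GG.g4 5 st5 st6 = true := by decide +kernel

def chunk6 : poiOk (mkPar 31 64) qs g1 g2 GG.g4 5 st6 st7 = true := by decide +kernel

def chunk7 : poiOk (mkPar 31 64) qs g1 g2 GG.g4 5 st7 st8 = true := by decide +kernel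

def chunk8 : poiOk (mkPar 31 64) qs g1 g2 GG.g4 5 st8 st9 = true := by decide +kernel

def chunk9 : poiOk (mkPar 31 64) qs g1 g2 GG.g4 5 st9 st10 = true := by decide +kernel

def chunk10 : poiOk (mkPar 31 64) qs g1 g2 GG.g4 5 st10 st11 = true := by decide +kernel

end Vale.Agent.P154.Neg.Grid.Runs.E2.Poi
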